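import Vale.Agent.P131.Transfer

/-!
# The hyperinvariant subspace problem has a negative answer
-/

namespace Vale.Agent.Results.P131.NoHyperinvariant

/-- On every separable infinite-dimensional complex Hilbert space there is a bounded operator,
not a multiple of the identity, such that the only closed subspaces invariant under its whole
commutant are `⊥` and `⊤`. -/
theorem result (H : Type) [NormedAddCommGroup H] [InnerProductSpace ℂ H]
    [CompleteSpace H] [TopologicalSpace.SeparableSpace H] (hH : ¬ FiniteDimensional ℂ H) :
    ∃ T : H →L[ℂ] H, (∀ c : ℂ, T ≠ c • 1) ∧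
      ∀ M : Submodule ℂ H, IsClosed (M : Set H) →
        (∀ A : H →L[ℂ] H, A * T = T * A → ∀ x ∈ M, A x ∈ M) → M = ⊥ ∨ M = ⊤ :=
  Vale.Agent.P131.no_hyperinvariant H hH

end Vale.Agent.Results.P131.NoHyperinvariant
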